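import Mathlib.Algebra.Algebra.Operations
import Mathlib.Algebra.Polynomial.Roots
import Mathlib.LinearAlgebra.Dual.Lemmas
import Mathlib.Analysis.Complex.Basic

/-!
Interpolation and polarisation inside a commutative complex algebra.
-/

namespace Vale.Agent.P181

open Finset

/-- Coefficients of a polynomial curve inside a subspace lie in the subspace. -/
lemma coeff_mem_of_curve_mem {A : Type*} [AddCommGroup A] [Module ℂ A] (S : Submodule ℂ A)
    (n : ℕ) (c : ℕ → A) (h : ∀ t : ℂ, (∑ k ∈ range n, t ^ k • c k) ∈ S) :
    ∀ k < n, c k ∈ S := by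
  intro k hk
  by_contra hc
  obtain ⟨f, hf, hmap⟩ := Submodule.exists_dual_map_eq_bot_of_notMem hc inferInstance
  have hz : ∀ x ∈ S, f x = 0 := by
    intro x hx
    have : f x ∈ S.map f := Submodule.mem_map_of_mem hx
    simpa [hmap] using this
  have hp : (∑ j ∈ range n, Polynomial.C (f (c j)) * Polynomial.X ^ j) = 0 := by
    refine Polynomial.funext fun t => ?_
    have := hz _ (h t)
    simp only [map_sum, map_smul, smul_eq_mul] at this
    simp only [Polynomial.eval_finsetSum, Polynomial.eval_mul, Polynomial.eval_C,
      Polynomial.eval_pow, Polynomial.eval_X, Polynomial.eval_zero]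
    rw [← this]
    exact sum_congr rfl fun j _ => mul_comm _ _
  have := congrArg (fun p => Polynomial.coeff p k) hp
  simp [Polynomial.finsetSum_coeff, Polynomial.coeff_X_pow, hk] at this
  exact hf this

/-- The `m`-th power of a subspace is spanned by `m`-th powers. -/
lemma pow_le_span_pow {B : Type*} [CommRing B] [Algebra ℂ B] (V : Submodule ℂ B) (m : ℕ) :
    V ^ m ≤ Submodule.span ℂ ((fun v => v ^ m) '' (V : Set B)) := by
  induction m with
  | zero =>
    rw [pow_zero, Submodule.one_le]
    exact Submodule.subset_span ⟨0, V.zero_mem, by simp⟩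
  | succ m ih =>
    rw [pow_succ]
    refine (mul_le_mul_left ih V).trans ?_
    rw [Submodule.mul_le]
    intro x hx w hw
    induction hx using Submodule.span_induction with
    | mem x hx =>
      obtain ⟨v, hv, rfl⟩ := hx
      set T := Submodule.span ℂ ((fun v => v ^ (m + 1)) '' (V : Set B))
      have h := coeff_mem_of_curve_mem T (m + 2)
        (fun k => ((m + 1).choose k : ℂ) • (w ^ k * v ^ (m + 1 - k))) (fun t => by
          have hmem : (t • w + v) ^ (m + 1) ∈ T :=
            Submodule.subset_span ⟨t • w + v, V.add_mem (V.smul_mem t hw) hv, rfl⟩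
          convert hmem using 1
          rw [add_pow]
          refine sum_congr rfl fun k _ => ?_
          simp [Algebra.smul_def, mul_pow]
          ring) 1 (by omega)
      simp only [Nat.choose_one_right, pow_one, Nat.add_sub_cancel] at h
      have h2 := T.smul_mem ((((m + 1 : ℕ) : ℂ))⁻¹) h
      rw [smul_smul, inv_mul_cancel₀ (by exact_mod_cast Nat.succ_ne_zero m), one_smul] at h2
      rwa [mul_comm]
    | zero => simp
    | add x y _ _ hx hy => rw [add_mul]; exact Submodule.add_mem _ hx hy
    | smul c x _ hx => rw [smul_mul_assoc]; exact Submodule.smul_mem _ _ hx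

lemma range_pow_le_span {B : Type*} [CommRing B] [Algebra ℂ B] {W : Type*} [AddCommGroup W]
    [Module ℂ W] (f : W →ₗ[ℂ] B) (m : ℕ) :
    f.range ^ m ≤ Submodule.span ℂ (Set.range fun v => f v ^ m) := by
  refine (pow_le_span_pow f.range m).trans (Submodule.span_mono ?_)
  rintro _ ⟨_, ⟨v, rfl⟩, rfl⟩
  exact ⟨v, rfl⟩

/-- A finite product of spans is spanned by the products. -/
lemma prod_span_le {B : Type*} [CommRing B] [Algebra ℂ B] {ι W : Type*} [DecidableEq ι]
    [Nonempty W] (g : ι → W → B) (s : Finset ι) :
    (∏ i ∈ s, Submodule.span ℂ (Set.range (g i))) ≤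
      Submodule.span ℂ (Set.range fun v : ι → W => ∏ i ∈ s, g i (v i)) := by
  induction s using Finset.induction with
  | empty =>
    rw [prod_empty, Submodule.one_le]
    exact Submodule.subset_span ⟨fun _ => Classical.arbitrary W, by simp⟩
  | insert i s hi ih =>
    rw [prod_insert hi]
    refine (mul_le_mul_right ih _).trans ?_
    rw [Submodule.span_mul_span, Submodule.span_le]
    rintro _ ⟨_, ⟨w, rfl⟩, _, ⟨v, rfl⟩, rfl⟩
    refine Submodule.subset_span ⟨Function.update v i w, ?_⟩
    simp only [prod_insert hi, Function.update_self]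
    congr 1
    exact prod_congr rfl fun j hj => by
      rw [Function.update_of_ne (fun h => hi (by rwa [← h]))]

end Vale.Agent.P181
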