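import Vale.Agent.P181.Basic
import Mathlib.RingTheory.MvPolynomial.Symmetric.NewtonIdentities
import Mathlib.Logic.Equiv.Embedding

/-!
Degree-controlled generation of multisymmetric functions by elementary ones.
-/

namespace Vale.Agent.P181

open Finset MvPolynomial

variable {F : Type*} [CommRing F] [Algebra ℂ F] {W : Type*} [AddCommGroup W] [Module ℂ W]
variable {ι : Type*} [Fintype ι] [DecidableEq ι]

section
variable (r : W →ₗ[ℂ] (ι → F)) (G : Submodule ℂ F)
variable (hG : ∀ v k, aeval (r v) (esymm ι ℂ k) ∈ G)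
include hG

lemma one_le_G : (1 : Submodule ℂ F) ≤ G := by
  rw [Submodule.one_le]
  simpa using hG 0 0

lemma psum_mem (v : W) (k : ℕ) : aeval (r v) (psum ι ℂ k) ∈ G ^ k := by
  induction k using Nat.strong_induction_on with
  | _ k ih =>
    rcases Nat.eq_zero_or_pos k with rfl | hk
    · simpa using Submodule.algebraMap_mem (R := ℂ) (A := F) (Fintype.card ι : ℂ)
    have h1 : G ≤ G ^ k := le_self_pow (one_le_G r G hG) hk.ne'
    rw [psum_eq_mul_esymm_sub_sum ι ℂ k hk, map_sub, map_sum]
    refine sub_mem ?_ (sum_mem fun a ha => ?_)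
    · have := (G ^ k).smul_mem ((-1 : ℂ) ^ (k + 1) * k) (h1 (hG v k))
      simpa [Algebra.smul_def] using this
    · simp only [Finset.mem_filter, mem_antidiagonal, Set.mem_Ioo] at ha
      have h2 : aeval (r v) (esymm ι ℂ a.1) * aeval (r v) (psum ι ℂ a.2) ∈ G ^ k :=
        pow_le_pow_right' (one_le_G r G hG) (show a.2 + 1 ≤ k by omega)
          (by rw [pow_succ']; exact Submodule.mul_mem_mul (hG v _) (ih a.2 (by omega)))
      have := (G ^ k).smul_mem ((-1 : ℂ) ^ a.1) h2
      simpa [Algebra.smul_def, mul_assoc] using this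

lemma sum_mem_of_mem_pow (w : ℕ) (f : ι → F) (hf : f ∈ r.range ^ w) :
    ∑ i, f i ∈ G ^ w := by
  have hf' := range_pow_le_span r w hf
  clear hf
  induction hf' using Submodule.span_induction with
  | mem x hx =>
    obtain ⟨v, rfl⟩ := hx
    simpa [psum] using psum_mem r G hG v w
  | zero => simp
  | add x y _ _ hx hy => simpa [sum_add_distrib] using add_mem hx hy
  | smul c x _ hx => simpa [smul_sum] using (G ^ w).smul_mem c hx

/-- Sums over injective tuples of bounded weight. -/
theorem sum_embedding_mem : ∀ (n : ℕ) (w : Fin n → ℕ) (f : Fin n → ι → F),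
    (∀ j, f j ∈ r.range ^ w j) →
      ∑ g : Fin n ↪ ι, ∏ j, f j (g j) ∈ G ^ (∑ j, w j) := by
  intro n
  induction n with
  | zero =>
    intro w f _
    simpa [Submodule.mem_one] using
      Submodule.algebraMap_mem (R := ℂ) (A := F) (Fintype.card (Fin 0 ↪ ι) : ℂ)
  | succ n ih =>
    intro w f hf
    have hsplit : ∑ g : Fin (n + 1) ↪ ι, ∏ j, f j (g j) =
        ∑ g : Fin n ↪ ι, (∏ j, f j.succ (g j)) *
          ((∑ i, f 0 i) - ∑ k, f 0 (g k)) := by
      rw [← Equiv.sum_comp (Equiv.embeddingFinSucc n ι).symm, Fintype.sum_sigma]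
      refine Finset.sum_congr rfl fun g _ => ?_
      rw [← Finset.sum_map univ g (f 0), ← Finset.sum_sdiff_eq_sub (subset_univ _), mul_sum]
      rw [sum_subtype (univ \ univ.map g) (p := fun i => i ∉ Set.range g)
        (fun i => by simp) (fun i => (∏ j, f j.succ (g j)) * f 0 i) ]
      refine Finset.sum_congr rfl fun i _ => ?_
      rw [Fin.prod_univ_succ, mul_comm]
      simp [Equiv.coe_embeddingFinSucc_symm]
    rw [hsplit, Fin.sum_univ_succ]
    simp only [mul_sub, sum_sub_distrib]
    rw [← sum_mul, add_comm, pow_add]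
    simp only [mul_sum (Finset.univ : Finset (Fin n))]
    refine sub_mem (Submodule.mul_mem_mul (ih _ _ fun j => hf j.succ)
      (sum_mem_of_mem_pow r G hG _ _ (hf 0))) ?_
    rw [sum_comm, ← pow_add]
    refine sum_mem fun k _ => ?_
    have hk := ih (fun j => w j.succ + if j = k then w 0 else 0)
      (fun j => f j.succ * if j = k then f 0 else 1) (fun j => by
        rw [pow_add]
        refine Submodule.mul_mem_mul (hf j.succ) ?_
        split
        · exact hf 0
        · exact pow_zero r.range ▸ Submodule.one_le.1 le_rfl)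
    have hw : ∑ j : Fin n, (w j.succ + if j = k then w 0 else 0) =
        (∑ j : Fin n, w j.succ) + w 0 := by
      simp [sum_add_distrib]
    rw [hw] at hk
    convert hk using 1
    refine Finset.sum_congr rfl fun g _ => ?_
    simp only [Pi.mul_apply, prod_mul_distrib]
    congr 1
    rw [prod_eq_single k (fun j _ hj => by simp [hj]) (by simp)]
    simp

end

end Vale.Agent.P181
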