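import Vale.Agent.P181.Generation
import Vale.Agent.P181.Multisym
import Mathlib.Algebra.BigOperators.Group.Finset.Powerset

/-!
Symmetrised tensors of multidegree `(b, …, b)` are spanned by products of `b` elements
`∏ i, φ i L`, once `b ≥ a * (a - 1) ^ 2`.
-/

namespace Vale.Agent.P181

open Finset

variable {P : Type*} [CommRing P] [IsDomain P] [Algebra ℂ P]
variable {W : Type*} [AddCommGroup W] [Module ℂ W]
variable {ι : Type*} [Fintype ι] [DecidableEq ι] (φ : ι → W →ₗ[ℂ] P)

/-- A family of algebra endomorphisms permuting the points. -/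
structure PermutesPoints (π : Equiv.Perm ι → P →ₐ[ℂ] P) : Prop where
  map_point : ∀ σ i v, π σ (φ i v) = φ (σ i) v

variable (π : Equiv.Perm ι → P →ₐ[ℂ] P)

/-- Sum over all permutations. -/
noncomputable def symSum : P →ₗ[ℂ] P := ∑ σ, (π σ).toLinearMap

lemma symSum_apply (x : P) : symSum π x = ∑ σ, π σ x := by
  simp [symSum]

variable {φ π} (hπ : PermutesPoints φ π) (hinj : ∀ i, Function.Injective (φ i))
include hπ

lemma symSum_theta_mul (L : W) (N : ℕ) (x : P) :
    symSum π ((∏ i, φ i L) ^ N * x) = (∏ i, φ i L) ^ N * symSum π x := by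
  simp only [symSum_apply, map_mul, mul_sum, map_pow, map_prod, hπ.map_point]
  refine sum_congr rfl fun σ _ => ?_
  rw [Equiv.prod_comp σ (fun i => φ i L)]

include hinj

lemma sym_step (N b : ℕ) (h : Fintype.card ι * N ≤ b) :
    (multiSpace φ univ b).map (symSum π) ≤
      thetaSpace φ univ N * (multiSpace φ univ (b - N)).map (symSum π) := by
  refine (Submodule.map_mono (multiSpace_le φ hinj univ N b (by simpa using h))).trans ?_
  rw [Submodule.map_le_iff_le_comap, Submodule.mul_le]
  intro t ht x hx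
  rw [Submodule.mem_comap]
  induction ht using Submodule.span_induction with
  | mem t ht =>
    obtain ⟨L, rfl⟩ := ht
    rw [symSum_theta_mul hπ]
    exact Submodule.mul_mem_mul (theta_pow_mem φ univ N L) (Submodule.mem_map_of_mem hx)
  | zero => simp
  | add y z _ _ hy hz => rw [add_mul, map_add]; exact add_mem hy hz
  | smul c y _ hy => rw [smul_mul_assoc, map_smul]; exact Submodule.smul_mem _ _ hy

lemma sym_iterate (d : ℕ) (hd : Fintype.card ι ≤ d + 1) : ∀ j,
    (multiSpace φ univ (d + j)).map (symSum π) ≤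
      thetaSpace φ univ 1 ^ j * (multiSpace φ univ d).map (symSum π) := by
  intro j
  induction j with
  | zero => simp
  | succ j ih =>
    refine (sym_step hπ hinj 1 (d + (j + 1)) (by omega)).trans ?_
    rw [show d + (j + 1) - 1 = d + j by omega, pow_succ', mul_assoc]
    exact mul_le_mul_right ih _

omit hinj in
lemma theta_pow_mul_symSum_mem (L : W) (hL : ∏ i, φ i L ≠ 0) (d N : ℕ)
    (hN : Fintype.card ι * d ≤ N + d) (v : ι → W) :
    (∏ i, φ i L) ^ N * symSum π (∏ i, φ i (v i) ^ d) ∈ thetaSpace φ univ 1 ^ (N + d) := by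
  set θ : P := ∏ i, φ i L with hθ
  have hf := IsFractionRing.injective P (FractionRing P)
  set f : P →ₐ[ℂ] FractionRing P := IsScalarTower.toAlgHom ℂ P (FractionRing P) with hfdef
  have hfi : Function.Injective f := hf
  have hne : ∀ i, f (φ i L) ≠ 0 := fun i h =>
    hL (prod_eq_zero (mem_univ i) (hfi (h.trans (map_zero f).symm)))
  have hθ0 : f θ ≠ 0 := fun h => hL (hfi (h.trans (map_zero f).symm))
  let r : W →ₗ[ℂ] (ι → FractionRing P) :=
    LinearMap.pi fun i => (LinearMap.mulLeft ℂ (f (φ i L))⁻¹).comp (f.toLinearMap.comp (φ i))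
  let G : Submodule ℂ (FractionRing P) :=
    Submodule.span ℂ {(f θ)⁻¹} * (thetaSpace φ univ 1).map f.toLinearMap
  have hG : ∀ w k, MvPolynomial.aeval (r w) (MvPolynomial.esymm ι ℂ k) ∈ G := by
    intro w k
    rcases le_or_gt (Fintype.card ι + 1) k with hk | hk
    · rw [MvPolynomial.esymm, powersetCard_eq_empty.2 (by simp; omega)]
      simp
    refine coeff_mem_of_curve_mem G (Fintype.card ι + 1)
      (fun k => MvPolynomial.aeval (r w) (MvPolynomial.esymm ι ℂ k)) (fun t => ?_) k hk
    have hmem : (f θ)⁻¹ * f (∏ i, φ i (t • w + L)) ∈ G :=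
      Submodule.mul_mem_mul (Submodule.mem_span_singleton_self _)
        (Submodule.mem_map_of_mem (f := f.toLinearMap)
          (by simpa using theta_pow_mem φ univ 1 (t • w + L)))
    convert hmem using 1
    have : (f θ)⁻¹ * f (∏ i, φ i (t • w + L)) = ∏ i, (t • r w i + 1) := by
      rw [hθ, map_prod, map_prod, ← prod_inv_distrib, ← prod_mul_distrib]
      refine prod_congr rfl fun i _ => ?_
      simp only [map_add, map_smul, mul_add, mul_smul_comm, inv_mul_cancel₀ (hne i), r,
        LinearMap.pi_apply, LinearMap.comp_apply, LinearMap.mulLeft_apply,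
        AlgHom.toLinearMap_apply]
    rw [this, prod_add, Finset.sum_powerset, Finset.card_univ]
    refine sum_congr rfl fun j _ => ?_
    simp only [MvPolynomial.esymm, map_sum, map_prod, MvPolynomial.aeval_X, smul_sum, prod_const_one,
      mul_one]
    refine sum_congr rfl fun s hs => ?_
    rw [prod_smul, prod_const, (mem_powersetCard.1 hs).2]
  let e : Fin (Fintype.card ι) ≃ ι := (Fintype.equivFin ι).symm
  have hS := sum_embedding_mem r G hG (Fintype.card ι) (fun _ => d)
    (fun j => r (v (e j)) ^ d) (fun j => Submodule.pow_mem_pow _ (LinearMap.mem_range_self _ _) d)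
  simp only [sum_const, card_univ, Fintype.card_fin, smul_eq_mul] at hS
  have hrho : f (symSum π (∏ i, φ i (v i) ^ d)) = f θ ^ d *
      ∑ g : Fin (Fintype.card ι) ↪ ι, ∏ j, (r (v (e j)) ^ d) (g j) := by
    rw [symSum_apply, map_sum, mul_sum]
    let E : Equiv.Perm ι ≃ (Fin (Fintype.card ι) ↪ ι) :=
      Equiv.ofBijective (fun σ => ⟨fun j => σ (e j), σ.injective.comp e.injective⟩) <| by
        refine ⟨fun σ τ h => ?_, fun g => ?_⟩
        · exact Equiv.ext fun i => by simpa using DFunLike.congr_fun h (e.symm i)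
        · refine ⟨e.symm.trans (Equiv.ofBijective g
            ((Fintype.bijective_iff_injective_and_card g).2 ⟨g.injective, by simp⟩)), ?_⟩
          ext j
          simp
    refine Fintype.sum_equiv E _ _ fun σ => ?_
    simp only [map_prod, map_pow, hπ.map_point, Pi.pow_apply]
    change _ = f θ ^ d * ∏ x, r (v (e x)) (σ (e x)) ^ d
    rw [Equiv.prod_comp e (fun i => r (v i) (σ i) ^ d), hθ, map_prod,
      ← prod_pow, ← Equiv.prod_comp σ (fun i => f (φ i L) ^ d), ← prod_mul_distrib]
    refine prod_congr rfl fun i _ => ?_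
    simp only [r, LinearMap.pi_apply, LinearMap.comp_apply, LinearMap.mulLeft_apply,
      AlgHom.toLinearMap_apply]
    rw [← mul_pow, ← mul_assoc, mul_inv_cancel₀ (hne _), one_mul]
  simp only [G, mul_pow, Submodule.span_pow, Set.singleton_pow, ← Submodule.map_pow] at hS
  obtain ⟨z, hz, hz'⟩ := Submodule.mem_span_singleton_mul.1 hS
  obtain ⟨y, hy, rfl⟩ := hz
  set M := Fintype.card ι * d
  have : θ ^ N * symSum π (∏ i, φ i (v i) ^ d) = θ ^ (N + d - M) * y := by
    apply hfi
    rw [map_mul, map_mul, map_pow, map_pow, hrho, ← hz', AlgHom.toLinearMap_apply,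
      ← mul_assoc, ← mul_assoc, ← pow_add]
    congr 1
    rw [inv_pow]
    conv_lhs => rw [← Nat.sub_add_cancel hN, pow_add]
    rw [mul_assoc, mul_inv_cancel₀ (pow_ne_zero _ hθ0), mul_one]
  rw [this]
  rw [show thetaSpace φ univ 1 ^ (N + d) = thetaSpace φ univ 1 ^ (N + d - M) *
    thetaSpace φ univ 1 ^ M by rw [← pow_add, Nat.sub_add_cancel hN]]
  exact Submodule.mul_mem_mul
    (Submodule.pow_mem_pow _ (by simpa using theta_pow_mem φ univ 1 L) _) hy

omit hinj in
lemma thetaSpace_mul_sym_le (d N : ℕ) (hN0 : 0 < N) (hN : Fintype.card ι * d ≤ N + d) :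
    thetaSpace φ univ N * (multiSpace φ univ d).map (symSum π) ≤
      thetaSpace φ univ 1 ^ (N + d) := by
  have h1 : multiSpace φ univ d ≤
      Submodule.span ℂ (Set.range fun v : ι → W => ∏ i, φ i (v i) ^ d) :=
    (prod_le_prod' fun i _ => range_pow_le_span (φ i) d).trans
      (prod_span_le (fun i w => φ i w ^ d) univ)
  refine (mul_le_mul_right (Submodule.map_mono h1) _).trans ?_
  rw [Submodule.map_span, thetaSpace, Submodule.span_mul_span, Submodule.span_le]
  rintro _ ⟨_, ⟨L, rfl⟩, _, ⟨_, ⟨v, rfl⟩, rfl⟩, rfl⟩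
  by_cases hL : ∏ i, φ i L = 0
  · simp only [hL, zero_pow hN0.ne', zero_mul]
    exact Submodule.zero_mem _
  exact theta_pow_mul_symSum_mem hπ L hL d N hN v

/-- The core statement. -/
theorem sym_multiSpace_le (b : ℕ) (ha : 1 ≤ Fintype.card ι)
    (hb : Fintype.card ι * (Fintype.card ι - 1) ^ 2 ≤ b) :
    (multiSpace φ univ b).map (symSum π) ≤ thetaSpace φ univ 1 ^ b := by
  obtain ⟨d, hd⟩ : ∃ d, Fintype.card ι = d + 1 := ⟨_, (Nat.sub_add_cancel ha).symm⟩
  rw [hd, Nat.add_sub_cancel] at hb
  rcases Nat.eq_zero_or_pos d with rfl | hd0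
  · have h := sym_iterate hπ hinj 0 (by omega) b
    rw [zero_add] at h
    refine h.trans ?_
    conv_rhs => rw [← mul_one (thetaSpace φ univ 1 ^ b)]
    refine mul_le_mul_right ?_ _
    simp only [multiSpace, pow_zero, prod_const_one, Submodule.map_le_iff_le_comap,
      Submodule.one_le, Submodule.mem_comap, symSum_apply, map_one, sum_const]
    exact nsmul_mem (Submodule.one_le.1 le_rfl) _
  · set N := d ^ 2 with hN
    have hNd : N + d ≤ b := le_trans (by rw [hN]; nlinarith) hb
    refine (sym_step hπ hinj N b (by rw [hd]; exact hb)).trans ?_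
    obtain ⟨j, hj⟩ : ∃ j, b - N = d + j := ⟨b - N - d, by omega⟩
    rw [hj]
    refine (mul_le_mul_right (sym_iterate hπ hinj d (by omega) j) _).trans ?_
    rw [mul_left_comm]
    refine (mul_le_mul_right (thetaSpace_mul_sym_le hπ d N (by positivity)
      (by rw [hd, hN]; exact le_of_eq (by ring))) _).trans ?_
    rw [← pow_add]
    exact le_of_eq (by congr 1; omega)

end Vale.Agent.P181
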