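import Vale.Agent.P181.Core

/-!
Induction on the number of points: symmetrised tensors of multidegree `(b, …, b)` in `a` points
are spanned by products of `b` elements `∏ i, φ i L` once `b ≥ (a - 1) ^ 2`.
-/

namespace Vale.Agent.P181

open Finset

lemma sum_perm_apply {ι : Type*} [Fintype ι] [DecidableEq ι] {A : Type*} [AddCommGroup A]
    [Module ℂ A] (g : ι → A) (i₀ : ι) :
    ∑ σ : Equiv.Perm ι, g (σ i₀) =
      (((Fintype.card ι).factorial : ℂ) / Fintype.card ι) • ∑ i, g i := by
  have h : ∀ i, ∑ σ : Equiv.Perm ι, g (σ i) = ∑ σ : Equiv.Perm ι, g (σ i₀) := fun i =>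
    Fintype.sum_equiv (Equiv.mulRight (Equiv.swap i₀ i)) _ _ fun σ => by simp
  have h2 : (Fintype.card ι : ℂ) • ∑ σ : Equiv.Perm ι, g (σ i₀) =
      ((Fintype.card ι).factorial : ℂ) • ∑ i, g i := by
    rw [Nat.cast_smul_eq_nsmul, Nat.cast_smul_eq_nsmul]
    calc Fintype.card ι • ∑ σ : Equiv.Perm ι, g (σ i₀)
        = ∑ i, ∑ σ : Equiv.Perm ι, g (σ i) := by simp [h]
      _ = ∑ σ : Equiv.Perm ι, ∑ i, g i := by
          rw [sum_comm]
          exact sum_congr rfl fun σ _ => Equiv.sum_comp σ g
      _ = _ := by simp [Fintype.card_perm]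
  have hc : (Fintype.card ι : ℂ) ≠ 0 :=
    Nat.cast_ne_zero.2 (Fintype.card_pos_iff.2 ⟨i₀⟩).ne'
  rw [div_eq_inv_mul, mul_smul, ← h2, inv_smul_smul₀ hc]

variable {P : Type*} [CommRing P] [IsDomain P] [Algebra ℂ P]
variable {W : Type*} [AddCommGroup W] [Module ℂ W]
variable {ι : Type} [Fintype ι] [DecidableEq ι] {φ : ι → W →ₗ[ℂ] P}
variable {π : Equiv.Perm ι → P →ₐ[ℂ] P} (hπ : PermutesPoints φ π)
include hπ

lemma symSum_base (hinj : ∀ i, Function.Injective (φ i)) (i₀ : ι) (N : ℕ)
    (hN : (univ.erase i₀).Nonempty → 0 < N) (L A : W) :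
    symSum π (φ i₀ L ^ N * (∏ i ∈ univ.erase i₀, φ i A) ^ N) ∈ thetaSpace φ univ 1 ^ N := by
  rcases Nat.eq_zero_or_pos N with rfl | hN0
  · simp only [pow_zero, mul_one, symSum_apply, map_one, sum_const]
    exact nsmul_mem (Submodule.one_le.1 le_rfl) _
  by_cases hA : A = 0
  · subst hA
    rcases (univ.erase i₀).eq_empty_or_nonempty with he | ⟨j, hj⟩
    · have hu : ∀ i, i = i₀ := fun i => by
        by_contra h
        simpa [he] using mem_erase.2 ⟨h, mem_univ i⟩
      rw [he, prod_empty, one_pow, mul_one, symSum_apply]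
      refine sum_mem fun σ _ => ?_
      rw [map_pow, hπ.map_point]
      refine Submodule.pow_mem_pow _ ?_ N
      have : φ (σ i₀) L = (∏ i, φ i L) ^ 1 := by
        rw [pow_one, prod_eq_single_of_mem (σ i₀) (mem_univ _)
          (fun i _ h => absurd ((hu i).trans (hu _).symm) h)]
      rw [this]
      exact theta_pow_mem φ univ 1 L
    · rw [prod_eq_zero hj (map_zero _), zero_pow hN0.ne', mul_zero, map_zero]
      exact Submodule.zero_mem _
  set f : P →ₐ[ℂ] FractionRing P := IsScalarTower.toAlgHom ℂ P (FractionRing P)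
  have hfi : Function.Injective f := IsFractionRing.injective P (FractionRing P)
  have hne : ∀ i, f (φ i A) ≠ 0 := fun i h =>
    hA (hinj i ((hfi (h.trans (map_zero f).symm)).trans (map_zero (φ i)).symm))
  set θ : P := ∏ i, φ i A with hθ
  have hθ0 : f θ ≠ 0 := by rw [hθ, map_prod]; exact prod_ne_zero_iff.2 fun i _ => hne i
  let r : W →ₗ[ℂ] (ι → FractionRing P) :=
    LinearMap.pi fun i => (LinearMap.mulLeft ℂ (f (φ i A))⁻¹).comp (f.toLinearMap.comp (φ i))
  let G : Submodule ℂ (FractionRing P) :=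
    Submodule.span ℂ {(f θ)⁻¹} * (thetaSpace φ univ 1).map f.toLinearMap
  have hG : ∀ w k, MvPolynomial.aeval (r w) (MvPolynomial.esymm ι ℂ k) ∈ G := by
    intro w k
    rcases le_or_gt (Fintype.card ι + 1) k with hk | hk
    · rw [MvPolynomial.esymm, powersetCard_eq_empty.2 (by simp; omega)]
      simp
    refine coeff_mem_of_curve_mem G (Fintype.card ι + 1)
      (fun k => MvPolynomial.aeval (r w) (MvPolynomial.esymm ι ℂ k)) (fun t => ?_) k hk
    have hmem : (f θ)⁻¹ * f (∏ i, φ i (t • w + A)) ∈ G :=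
      Submodule.mul_mem_mul (Submodule.mem_span_singleton_self _)
        (Submodule.mem_map_of_mem (f := f.toLinearMap)
          (by simpa using theta_pow_mem φ univ 1 (t • w + A)))
    convert hmem using 1
    have : (f θ)⁻¹ * f (∏ i, φ i (t • w + A)) = ∏ i, (t • r w i + 1) := by
      rw [hθ, map_prod, map_prod, ← prod_inv_distrib, ← prod_mul_distrib]
      refine prod_congr rfl fun i _ => ?_
      simp only [map_add, map_smul, mul_add, mul_smul_comm, inv_mul_cancel₀ (hne i), r,
        LinearMap.pi_apply, LinearMap.comp_apply, LinearMap.mulLeft_apply,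
        AlgHom.toLinearMap_apply]
    rw [this, prod_add, Finset.sum_powerset, Finset.card_univ]
    refine sum_congr rfl fun j _ => ?_
    simp only [MvPolynomial.esymm, map_sum, map_prod, MvPolynomial.aeval_X, smul_sum,
      prod_const_one, mul_one]
    refine sum_congr rfl fun s hs => ?_
    rw [prod_smul, prod_const, (mem_powersetCard.1 hs).2]
  have hS := (G ^ N).smul_mem (((Fintype.card ι).factorial : ℂ) / Fintype.card ι)
    (psum_mem r G hG L N)
  simp only [MvPolynomial.psum, map_sum, map_pow, MvPolynomial.aeval_X] at hS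
  rw [← sum_perm_apply (fun i => r L i ^ N) i₀] at hS
  simp only [G, mul_pow, Submodule.span_pow, Set.singleton_pow, ← Submodule.map_pow] at hS
  obtain ⟨z, hz, hz'⟩ := Submodule.mem_span_singleton_mul.1 hS
  obtain ⟨y, hy, rfl⟩ := hz
  suffices symSum π (φ i₀ L ^ N * (∏ i ∈ univ.erase i₀, φ i A) ^ N) = y by rwa [this]
  apply hfi
  rw [show f y = f θ ^ N * ((f θ)⁻¹ ^ N * f y) by
    rw [← mul_assoc, ← mul_pow, mul_inv_cancel₀ hθ0, one_pow, one_mul]]
  rw [AlgHom.toLinearMap_apply] at hz'
  rw [hz', symSum_apply, map_sum, mul_sum]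
  refine sum_congr rfl fun σ _ => ?_
  rw [← mul_pow, map_pow, map_pow, ← mul_pow]
  congr 1
  rw [map_mul, map_mul, hπ.map_point, map_prod, map_prod, hθ, map_prod]
  simp only [hπ.map_point, r, LinearMap.pi_apply, LinearMap.comp_apply,
    LinearMap.mulLeft_apply, AlgHom.toLinearMap_apply]
  rw [← Equiv.prod_comp σ (fun i => f (φ i A)), ← mul_prod_erase univ _ (mem_univ i₀)]
  field_simp [hne (σ i₀)]

lemma symSum_strip (hinj : ∀ i, Function.Injective (φ i)) (i₀ : ι) : ∀ j : ℕ,
    ((φ i₀).range ^ ((univ.erase i₀).card + j) *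
        (thetaSpace φ (univ.erase i₀) (univ.erase i₀).card *
          thetaSpace φ (univ.erase i₀) 1 ^ j)).map (symSum π) ≤
      thetaSpace φ univ 1 ^ ((univ.erase i₀).card + j) := by
  intro j
  induction j with
  | zero =>
    rw [add_zero, pow_zero, mul_one]
    refine (Submodule.map_mono (mul_le_mul_left (range_pow_le_span (φ i₀) _) _)).trans ?_
    rw [thetaSpace, Submodule.span_mul_span, Submodule.map_span, Submodule.span_le]
    rintro _ ⟨_, ⟨_, ⟨L, rfl⟩, _, ⟨A, rfl⟩, rfl⟩, rfl⟩
    exact symSum_base hπ hinj i₀ _ (fun h => card_pos.2 h) L A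
  | succ j ih =>
    set s := univ.erase i₀ with hs
    have hk := key_le φ hinj i₀ s (notMem_erase i₀ _) 1 one_pos
    rw [insert_erase (mem_univ i₀)] at hk
    simp only [mul_one] at hk
    have heq : (φ i₀).range ^ (s.card + (j + 1)) *
          (thetaSpace φ s s.card * thetaSpace φ s 1 ^ (j + 1)) =
        ((φ i₀).range ^ (s.card + 1) * thetaSpace φ s 1) *
          ((φ i₀).range ^ j * (thetaSpace φ s s.card * thetaSpace φ s 1 ^ j)) := by
      ring
    rw [heq]
    refine (Submodule.map_mono (mul_le_mul_left hk _)).trans ?_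
    rw [mul_assoc, Submodule.map_le_iff_le_comap, Submodule.mul_le]
    intro t ht x hx
    rw [← mul_assoc, ← pow_add] at hx
    rw [Submodule.mem_comap]
    induction ht using Submodule.span_induction with
    | mem t ht =>
      obtain ⟨L, rfl⟩ := ht
      rw [symSum_theta_mul hπ, ← add_assoc, pow_succ' (thetaSpace φ univ 1)]
      exact Submodule.mul_mem_mul (theta_pow_mem φ univ 1 L) (ih (Submodule.mem_map_of_mem hx))
    | zero => simp
    | add y z _ _ hy hz => rw [add_mul, map_add]; exact add_mem hy hz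
    | smul c y _ hy => rw [smul_mul_assoc, map_smul]; exact Submodule.smul_mem _ _ hy

omit hπ

/-- The core statement with a quadratic threshold. -/
theorem sym_multiSpace_le_sq : ∀ (n : ℕ) (ι : Type) [Fintype ι] [DecidableEq ι]
    (φ : ι → W →ₗ[ℂ] P) (π : Equiv.Perm ι → P →ₐ[ℂ] P),
    Fintype.card ι = n → PermutesPoints φ π → (∀ i, Function.Injective (φ i)) →
    ∀ b, (n - 1) ^ 2 ≤ b →
      (multiSpace φ univ b).map (symSum π) ≤ thetaSpace φ univ 1 ^ b := by
  intro n
  induction n with
  | zero =>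
    intro ι _ _ φ π hn hπ _ b _
    have : IsEmpty ι := Fintype.card_eq_zero_iff.1 hn
    simp only [multiSpace, univ_eq_empty, prod_empty, Submodule.map_le_iff_le_comap,
      Submodule.one_le, Submodule.mem_comap, symSum_apply, map_one, sum_const]
    refine nsmul_mem ?_ _
    have h1 : (1 : P) ∈ thetaSpace φ (∅ : Finset ι) 1 := by
      simpa using theta_pow_mem φ ∅ 1 (0 : W)
    simpa using Submodule.pow_mem_pow _ h1 b
  | succ m ih =>
    intro ι _ _ φ π hn hπ hinj b hb
    rw [Nat.add_sub_cancel] at hb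
    obtain ⟨i₀⟩ : Nonempty ι := Fintype.card_pos_iff.1 (by omega)
    let φ' : {i // i ≠ i₀} → W →ₗ[ℂ] P := fun i => φ i
    let π' : Equiv.Perm {i // i ≠ i₀} → P →ₐ[ℂ] P := fun τ => π (Equiv.Perm.ofSubtype τ)
    have hπ' : PermutesPoints φ' π' := ⟨fun τ i v => by
      simp only [φ', π', hπ.map_point, Equiv.Perm.ofSubtype_apply_coe]⟩
    have hinj' : ∀ i, Function.Injective (φ' i) := fun i => hinj i
    have hcard : Fintype.card {i // i ≠ i₀} = m := by
      simp [Fintype.card_subtype_compl, hn]
    have hscard : (univ.erase i₀).card = m := by simp [hn]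
    have hprod : ∀ {M : Type _} [CommMonoid M] (g : ι → M),
        ∏ i : {i // i ≠ i₀}, g i = ∏ i ∈ univ.erase i₀, g i := fun g =>
      (prod_subtype (univ.erase i₀) (fun x => by simp) g).symm
    have hθ : ∀ N, thetaSpace φ' univ N = thetaSpace φ (univ.erase i₀) N := by
      intro N
      unfold thetaSpace
      congr 2
      funext L
      rw [← hprod (fun i => φ i L)]
    have hbm : m ≤ b := le_trans (Nat.le_self_pow two_ne_zero m) hb
    have hrest : (multiSpace φ' univ b).map (symSum π') ≤
        thetaSpace φ (univ.erase i₀) m * thetaSpace φ (univ.erase i₀) 1 ^ (b - m) := by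
      rw [← hθ, ← hθ]
      refine (sym_step hπ' hinj' m b (by rw [hcard, ← pow_two]; exact hb)).trans ?_
      refine mul_le_mul_right (ih _ φ' π' hcard hπ' hinj' (b - m) ?_) _
      rcases m with _ | k
      · simp
      · simp only [Nat.add_sub_cancel]
        have : k ^ 2 + (k + 1) ≤ (k + 1) ^ 2 := by nlinarith
        omega
    have hsp : multiSpace φ univ b ≤
        Submodule.span ℂ (Set.range fun v : ι → W => ∏ i, φ i (v i) ^ b) :=
      (prod_le_prod' fun i _ => range_pow_le_span (φ i) b).trans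
        (prod_span_le (fun i w => φ i w ^ b) univ)
    refine (Submodule.map_mono hsp).trans ?_
    rw [Submodule.map_span, Submodule.span_le]
    rintro _ ⟨_, ⟨v, rfl⟩, rfl⟩
    have hy : symSum π' (∏ i : {i // i ≠ i₀}, φ' i (v i) ^ b) ∈
        thetaSpace φ (univ.erase i₀) m * thetaSpace φ (univ.erase i₀) 1 ^ (b - m) := by
      refine hrest (Submodule.mem_map_of_mem ?_)
      have : ∀ s : Finset {i // i ≠ i₀},
          ∏ i ∈ s, φ' i (v i) ^ b ∈ multiSpace φ' s b := by
        intro s
        induction s using Finset.induction with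
        | empty =>
          simp only [multiSpace, prod_empty]
          exact Submodule.one_le.1 le_rfl
        | insert i s hi ihs =>
          simp only [multiSpace, prod_insert hi] at *
          exact Submodule.mul_mem_mul (Submodule.pow_mem_pow _ (LinearMap.mem_range_self _ _) b) ihs
      exact this univ
    have hmem := symSum_strip hπ hinj i₀ (b - m)
    rw [hscard, Nat.add_sub_cancel' hbm] at hmem
    have h := hmem (Submodule.mem_map_of_mem (Submodule.mul_mem_mul
      (Submodule.pow_mem_pow _ (LinearMap.mem_range_self (φ i₀) (v i₀)) b) hy))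
    have key : symSum π (φ i₀ (v i₀) ^ b * symSum π' (∏ i : {i // i ≠ i₀}, φ' i (v i) ^ b)) =
        ((m.factorial : ℂ)) • symSum π (∏ i, φ i (v i) ^ b) := by
      rw [symSum_apply π', mul_sum, map_sum,
        show m.factorial = Fintype.card (Equiv.Perm {i // i ≠ i₀}) by
          rw [Fintype.card_perm, hcard],
        Nat.cast_smul_eq_nsmul, ← card_univ, ← sum_const]
      refine sum_congr rfl fun τ _ => ?_
      rw [symSum_apply, symSum_apply]
      refine Fintype.sum_equiv (Equiv.mulRight (Equiv.Perm.ofSubtype τ)) _ _ fun σ => ?_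
      simp only [π', φ', map_mul, map_prod, map_pow, hπ.map_point, Equiv.coe_mulRight,
        Equiv.Perm.mul_apply]
      rw [← mul_prod_erase univ _ (mem_univ i₀),
        Equiv.Perm.ofSubtype_apply_of_not_mem τ (by simp),
        hprod (fun i => φ (σ (Equiv.Perm.ofSubtype τ i)) (v i) ^ b)]
    rw [key] at h
    have h2 := (thetaSpace φ univ 1 ^ b).smul_mem ((m.factorial : ℂ))⁻¹ h
    rwa [inv_smul_smul₀ (Nat.cast_ne_zero.2 m.factorial_ne_zero)] at h2

end Vale.Agent.P181
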