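import Vale.Agent.P181.SymTensor
import Vale.Agent.P181.Quadratic
import Mathlib.RingTheory.MvPolynomial.Homogeneous
import Mathlib.RingTheory.MvPolynomial.Basic

/-!
The Foulkes-Howe map and its injectivity for `b ≥ (a - 1) ^ 2`.
-/

namespace Vale.Agent.P181

open Finset TensorProduct

variable {V : Type} [AddCommGroup V] [Module ℂ V] {n : ℕ}

/-- Coefficient functional of a monomial tensor in `Sym^a (Sym^b V)`. -/
noncomputable def evalAt {a b : ℕ} (Y : Fin a → Fin b → V →ₗ[ℂ] ℂ) :
    Sym[ℂ]^a (Sym[ℂ]^b V) →ₗ[ℂ] ℂ :=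
  symEval fun i => symEval (Y i)

/-- `⊙ₖ ⊙ᵢ v i k`. -/
noncomputable def colTensor {a b : ℕ} (v : Fin a → Fin b → V) : Sym[ℂ]^b (Sym[ℂ]^a V) :=
  SymmetricPower.tprod ℂ fun k => SymmetricPower.tprod ℂ fun i => v i k

/-- `⊙ᵢ ⊙ₖ v i k`. -/
noncomputable def rowTensor {a b : ℕ} (v : Fin a → Fin b → V) : Sym[ℂ]^a (Sym[ℂ]^b V) :=
  SymmetricPower.tprod ℂ fun i => SymmetricPower.tprod ℂ fun k => v i k

lemma colTensor_expand {a b : ℕ} (e : Module.Basis (Fin n) ℂ V) (v : Fin a → Fin b → V) :
    colTensor v = ∑ r : Fin a → Fin b → Fin n,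
      (∏ i, ∏ k, e.coord (r i k) (v i k)) • colTensor (fun i k => e (r i k)) := by
  have hv : v = fun i k => ∑ j, e.coord j (v i k) • e j := by
    ext i k; simp [Module.Basis.sum_repr]
  unfold colTensor
  conv_lhs => rw [hv]
  simp only [MultilinearMap.map_sum, MultilinearMap.map_smul_univ]
  refine Fintype.sum_equiv (Equiv.piComm fun _ _ => Fin n) _ _ fun s => ?_
  rw [prod_comm]
  rfl

/-- The Foulkes-Howe map, through a basis. -/
noncomputable def psi (a b : ℕ) (e : Module.Basis (Fin n) ℂ V) :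
    Sym[ℂ]^a (Sym[ℂ]^b V) →ₗ[ℂ] Sym[ℂ]^b (Sym[ℂ]^a V) :=
  symLift (∑ r : Fin a → Fin b → Fin n,
      ((MultilinearMap.mkPiAlgebra ℂ (Fin a) ℂ).compLinearMap
        fun i => symEval (fun k => e.coord (r i k))).smulRight (colTensor fun i k => e (r i k)))
    fun σ x => by
      simp only [_root_.sum_apply, MultilinearMap.smulRight_apply,
        MultilinearMap.compLinearMap_apply, MultilinearMap.mkPiAlgebra_apply]
      refine Fintype.sum_equiv (Equiv.arrowCongr σ (Equiv.refl _)) _ _ fun r => ?_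
      congr 1
      · rw [← Equiv.prod_comp σ (fun i => symEval
          (fun k => e.coord ((Equiv.arrowCongr σ (Equiv.refl _) r) i k)) (x i))]
        simp
      · unfold colTensor
        congr 1
        ext k
        conv_rhs => rw [← SymmetricPower.tprod_equiv (R := ℂ) σ]
        simp

lemma psi_rowTensor (a b : ℕ) (e : Module.Basis (Fin n) ℂ V) (v : Fin a → Fin b → V) :
    psi a b e (rowTensor v) =
      ∑ σ : Fin a → Equiv.Perm (Fin b), colTensor (fun i k => v i (σ i k)) := by
  simp only [psi, rowTensor, symLift_tprod, _root_.sum_apply,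
    MultilinearMap.smulRight_apply, MultilinearMap.compLinearMap_apply,
    MultilinearMap.mkPiAlgebra_apply, symEval_tprod', Fintype.prod_sum, sum_smul]
  rw [sum_comm]
  exact sum_congr rfl fun σ _ => (colTensor_expand e fun i k => v i (σ i k)).symm

lemma reconstruct_two {a b : ℕ} (e : Module.Basis (Fin n) ℂ V) (x : Sym[ℂ]^a (Sym[ℂ]^b V)) :
    ((a.factorial : ℂ) * (b.factorial : ℂ) ^ a) • x = ∑ r : Fin a → Fin b → Fin n,
      evalAt (fun i k => e.coord (r i k)) x • rowTensor (fun i k => e (r i k)) := by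
  have h1 : ∀ m : V, (1 : ℂ) • m = ∑ j, e.coord j m • e j := fun m => by
    simp [Module.Basis.sum_repr]
  have h2 : ∀ q : Sym[ℂ]^b V, (b.factorial : ℂ) • q = ∑ r : Fin b → Fin n,
      symEval ((fun j => e.coord j) ∘ r) q • SymmetricPower.tprod ℂ ((fun j => e j) ∘ r) :=
    fun q => by simpa using reconstruct (ι := Fin b) 1 (fun j => e.coord j) (fun j => e j) h1 q
  simpa [evalAt, rowTensor, Function.comp_def] using
    reconstruct (ι := Fin a) _ _ _ h2 x

lemma factor_ne_zero (a b : ℕ) : (a.factorial : ℂ) * (b.factorial : ℂ) ^ a ≠ 0 := by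
  simp [Nat.factorial_ne_zero]

lemma ext_rowTensor {a b : ℕ} {N : Type*} [AddCommGroup N] [Module ℂ N]
    (e : Module.Basis (Fin n) ℂ V) {f g : Sym[ℂ]^a (Sym[ℂ]^b V) →ₗ[ℂ] N}
    (h : ∀ v, f (rowTensor v) = g (rowTensor v)) : f = g := by
  ext x
  refine (smul_right_injective N (factor_ne_zero a b)) ?_
  simp only
  rw [← map_smul, ← map_smul, reconstruct_two e x, map_sum, map_sum]
  simp only [map_smul, h]

/-- Evaluation of a polynomial-like expression at the rows all equal to `u`. -/
lemma evalAt_const_eq_zero {a b : ℕ} (e : Module.Basis (Fin n) ℂ V) (u : Fin b → V →ₗ[ℂ] ℂ)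
    (x : Sym[ℂ]^a (Sym[ℂ]^b V)) (hx : psi a b e x = 0) :
    evalAt (fun _ : Fin a => u) x = 0 := by
  let G : Sym[ℂ]^b (Sym[ℂ]^a V) →ₗ[ℂ] ℂ := symEval fun k => symEval fun _ : Fin a => u k
  have key : ((b.factorial : ℂ) * (a.factorial : ℂ) ^ b) • evalAt (fun _ : Fin a => u) =
      (a.factorial : ℂ) • (G ∘ₗ psi a b e) := by
    refine ext_rowTensor e fun v => ?_
    rw [LinearMap.smul_apply, LinearMap.smul_apply, LinearMap.comp_apply, psi_rowTensor, map_sum]
    have hl : evalAt (fun _ : Fin a => u) (rowTensor v) =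
        a.factorial * ∏ i, ∑ σ : Equiv.Perm (Fin b), ∏ k, u k (v i (σ k)) := by
      rw [evalAt, rowTensor, symEval_tprod]
      simp [symEval_tprod', Fintype.card_perm]
    have hr : ∀ w : Fin a → Fin b → V, G (colTensor w) =
        (a.factorial : ℂ) ^ b * ∑ τ : Equiv.Perm (Fin b), ∏ i, ∏ k, u k (w i (τ k)) := by
      intro w
      simp only [G, colTensor, symEval_tprod' (ι := Fin b), mul_sum]
      refine sum_congr rfl fun τ _ => ?_
      simp only [symEval_tprod, sum_const, card_univ, Fintype.card_perm, Fintype.card_fin,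
        nsmul_eq_mul, prod_mul_distrib, prod_const]
      rw [prod_comm]
    simp only [hl, hr, smul_eq_mul, ← mul_sum]
    rw [sum_comm]
    have : ∀ τ : Equiv.Perm (Fin b),
        (∑ σ : Fin a → Equiv.Perm (Fin b), ∏ i, ∏ k, u k (v i (σ i (τ k)))) =
          ∏ i, ∑ σ : Equiv.Perm (Fin b), ∏ k, u k (v i (σ k)) := by
      intro τ
      rw [Fintype.prod_sum]
      exact Fintype.sum_equiv (Equiv.piCongrRight fun _ => Equiv.mulRight τ) _ _ fun σ => by simp
    simp only [this, sum_const, card_univ, Fintype.card_perm, Fintype.card_fin, nsmul_eq_mul]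
    ring
  have h := LinearMap.congr_fun key x
  simp only [LinearMap.smul_apply, LinearMap.comp_apply, hx, map_zero, smul_zero,
    smul_eq_mul, mul_eq_zero] at h
  simpa [Nat.factorial_ne_zero] using h

/-- The linear form `u` at the point `i`. -/
noncomputable def pointForm (a : ℕ) (e : Module.Basis (Fin n) ℂ V) (i : Fin a) :
    (V →ₗ[ℂ] ℂ) →ₗ[ℂ] MvPolynomial (Fin a × Fin n) ℂ :=
  ∑ j, (LinearMap.applyₗ (e j)).smulRight (MvPolynomial.X (i, j))

lemma pointForm_apply (a : ℕ) (e : Module.Basis (Fin n) ℂ V) (i : Fin a) (u : V →ₗ[ℂ] ℂ) :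
    pointForm a e i u = ∑ j, u (e j) • MvPolynomial.X (i, j) := by
  simp [pointForm]

lemma pointForm_injective (a : ℕ) (e : Module.Basis (Fin n) ℂ V) (i : Fin a) :
    Function.Injective (pointForm a e i) := by
  intro u w h
  refine e.ext fun j => ?_
  have := congrArg (MvPolynomial.coeff (Finsupp.single (i, j) 1)) h
  classical
  simpa [pointForm_apply, MvPolynomial.coeff_sum, MvPolynomial.coeff_X', Finsupp.single_eq_single_iff]
    using this

/-- Permutation of the points. -/
noncomputable def permAlg (a n : ℕ) (σ : Equiv.Perm (Fin a)) :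
    MvPolynomial (Fin a × Fin n) ℂ →ₐ[ℂ] MvPolynomial (Fin a × Fin n) ℂ :=
  MvPolynomial.rename (Prod.map σ id)

lemma permutesPoints (a : ℕ) (e : Module.Basis (Fin n) ℂ V) :
    PermutesPoints (pointForm a e) (permAlg a n) :=
  ⟨fun σ i v => by simp [pointForm_apply, permAlg, Prod.map]⟩

open Classical in
/-- The functional on polynomials attached to a tensor. -/
noncomputable def beta {a b : ℕ} (e : Module.Basis (Fin n) ℂ V) (x : Sym[ℂ]^a (Sym[ℂ]^b V)) :
    MvPolynomial (Fin a × Fin n) ℂ →ₗ[ℂ] ℂ :=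
  (MvPolynomial.basisMonomials (Fin a × Fin n) ℂ).constr ℂ fun d =>
    if h : ∃ r : Fin a → Fin b → Fin n, ∑ i, ∑ k, Finsupp.single (i, r i k) 1 = d then
      evalAt (fun i k => e.coord (h.choose i k)) x else 0

lemma evalAt_congr {a b : ℕ} (e : Module.Basis (Fin n) ℂ V) (r r' : Fin a → Fin b → Fin n)
    (h : ∑ i, ∑ k, Finsupp.single (i, r i k) 1 =
      (∑ i, ∑ k, Finsupp.single (i, r' i k) (1 : ℕ))) :
    evalAt (fun i k => e.coord (r i k)) = evalAt (fun i k => e.coord (r' i k)) := by
  classical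
  have hcard : ∀ i j, Fintype.card {k // r i k = j} = Fintype.card {k // r' i k = j} := by
    intro i j
    have := DFunLike.congr_fun h (i, j)
    simp only [Finsupp.coe_finsetSum, Finset.sum_apply, Finsupp.single_apply, Prod.mk.injEq] at this
    rw [sum_eq_single i (fun i' _ hi' => by simp [hi']) (by simp),
      sum_eq_single i (fun i' _ hi' => by simp [hi']) (by simp)] at this
    simpa [Fintype.card_subtype, sum_boole] using this
  unfold evalAt
  congr 1
  funext i
  let σ : Equiv.Perm (Fin b) := Equiv.ofFiberEquiv fun j => Fintype.equivOfCardEq (hcard i j)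
  rw [← symEval_perm (fun k => e.coord (r' i k)) σ]
  congr 1
  funext k
  exact (congrArg e.coord (Equiv.ofFiberEquiv_map (f := r i) (g := r' i)
    (fun j => Fintype.equivOfCardEq (hcard i j)) k)).symm

lemma beta_prod {a b : ℕ} (e : Module.Basis (Fin n) ℂ V) (x : Sym[ℂ]^a (Sym[ℂ]^b V))
    (Y : Fin a → Fin b → V →ₗ[ℂ] ℂ) :
    beta e x (∏ i, ∏ k, pointForm a e i (Y i k)) = evalAt Y x := by
  have hY : evalAt Y = ∑ r : Fin a → Fin b → Fin n,
      (∏ i, ∏ k, Y i k (e (r i k))) • evalAt (fun i k => e.coord (r i k)) := by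
    have hd : ∀ i k, Y i k = ∑ j, Y i k (e j) • e.coord j := fun i k =>
      (e.sum_dual_apply_smul_coord (Y i k)).symm
    have h1 : ∀ i, symEval (Y i) = ∑ r : Fin b → Fin n,
        (∏ k, Y i k (e (r k))) • symEval (fun k => e.coord (r k)) := fun i => by
      rw [show Y i = fun k => ∑ j, Y i k (e j) • e.coord j from funext (hd i)]
      rw [symEval_expand]
      simp [Function.comp_def, ← hd]
    simp only [evalAt, h1]
    exact symEval_expand _ _
  rw [hY]
  simp only [pointForm_apply, Fintype.prod_sum, map_sum, LinearMap.sum_apply,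
    LinearMap.smul_apply]
  refine sum_congr rfl fun r _ => ?_
  rw [show (∏ i, ∏ k, Y i k (e (r i k)) • MvPolynomial.X (R := ℂ) (i, r i k)) =
      (∏ i, ∏ k, Y i k (e (r i k))) •
        (MvPolynomial.basisMonomials (Fin a × Fin n) ℂ)
          (∑ i, ∑ k, Finsupp.single (i, r i k) 1) by
    simp [prod_smul, MvPolynomial.monomial_sum_one, MvPolynomial.X]]
  rw [map_smul, beta, Module.Basis.constr_basis]
  congr 1
  rw [dif_pos ⟨r, rfl⟩]
  rw [evalAt_congr e _ r (Exists.choose_spec (p := fun r' : Fin a → Fin b → Fin n =>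
    (∑ i, ∑ k, Finsupp.single (i, r' i k) 1) = ∑ i, ∑ k, Finsupp.single (i, r i k) (1 : ℕ))
    ⟨r, rfl⟩)]

/-- Injectivity of the Foulkes-Howe map. -/
theorem psi_injective (a b : ℕ) (e : Module.Basis (Fin n) ℂ V) 
    (hb : (a - 1) ^ 2 ≤ b) : Function.Injective (psi a b e) := by
  rw [← LinearMap.ker_eq_bot, LinearMap.ker_eq_bot']
  intro x hx
  suffices hB : ∀ Y : Fin a → Fin b → V →ₗ[ℂ] ℂ, evalAt Y x = 0 by
    have := reconstruct_two e x
    simp only [hB, zero_smul, sum_const_zero, smul_eq_zero] at this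
    exact this.resolve_left (factor_ne_zero a b)
  intro Y
  set φ := pointForm a e
  have hvan : thetaSpace φ univ 1 ^ b ≤ LinearMap.ker (beta e x) := by
    have : thetaSpace φ univ 1 ^ b = ∏ _k : Fin b, Submodule.span ℂ
        (Set.range fun u : V →ₗ[ℂ] ℂ => ∏ i, φ i u) := by
      simp [thetaSpace]
    rw [this]
    refine (prod_span_le (fun _ u => ∏ i, φ i u) univ).trans ?_
    rw [Submodule.span_le]
    rintro _ ⟨u, rfl⟩
    simp only [SetLike.mem_coe, LinearMap.mem_ker]
    rw [prod_comm, beta_prod, evalAt_const_eq_zero e u x hx]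
  have hmem : ∏ i, ∏ k, φ i (Y i k) ∈ multiSpace φ univ b := by
    have : ∀ s : Finset (Fin a), ∏ i ∈ s, ∏ k, φ i (Y i k) ∈ multiSpace φ s b := by
      intro s
      induction s using Finset.induction with
      | empty =>
        simp only [multiSpace, prod_empty]
        exact Submodule.one_le.1 le_rfl
      | insert i s hi ih =>
        simp only [multiSpace, prod_insert hi] at *
        refine Submodule.mul_mem_mul ?_ ih
        have : ∀ t : Finset (Fin b), ∏ k ∈ t, φ i (Y i k) ∈ (φ i).range ^ t.card := by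
          intro t
          induction t using Finset.induction with
          | empty =>
            rw [prod_empty, card_empty, pow_zero]
            exact Submodule.one_le.1 le_rfl
          | insert k t hk iht =>
            rw [prod_insert hk, card_insert_of_notMem hk, pow_succ']
            exact Submodule.mul_mem_mul (LinearMap.mem_range_self _ _) iht
        simpa using this univ
    exact this univ
  have h := hvan (sym_multiSpace_le_sq a (Fin a) (pointForm a e) (permAlg a n) (Fintype.card_fin a)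
    (permutesPoints a e) (pointForm_injective a e) b hb (Submodule.mem_map_of_mem hmem))
  rw [LinearMap.mem_ker, symSum_apply, map_sum] at h
  have hterm : ∀ σ : Equiv.Perm (Fin a),
      beta e x (permAlg a n σ (∏ i, ∏ k, φ i (Y i k))) = evalAt Y x := by
    intro σ
    simp only [map_prod, (permutesPoints a e).map_point, φ]
    rw [← Equiv.prod_comp σ⁻¹ (fun i => ∏ k, pointForm a e (σ i) (Y i k))]
    simp only [Equiv.Perm.inv_def, Equiv.apply_symm_apply]
    rw [beta_prod, evalAt, evalAt, symEval_perm (fun i => symEval (Y i)) σ.symm]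
  rw [Finset.sum_congr rfl fun σ _ => hterm σ, sum_const, card_univ, Fintype.card_perm,
    Fintype.card_fin, nsmul_eq_mul, mul_eq_zero] at h
  exact h.resolve_left (by simp [Nat.factorial_ne_zero])

/-- Equivariance. -/
theorem psi_equivariant (a b : ℕ) (e : Module.Basis (Fin n) ℂ V) (g : V →ₗ[ℂ] V) :
    psi a b e ∘ₗ symMap a (symMap b g) = symMap b (symMap a g) ∘ₗ psi a b e := by
  refine ext_rowTensor e fun v => ?_
  have : symMap a (symMap b g) (rowTensor v) = rowTensor (fun i k => g (v i k)) := by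
    simp [rowTensor]
  simp [this, psi_rowTensor, colTensor]

/-- The functorial action of a linear map on `Sym^a (Sym^b V)`. -/
noncomputable def symMapTwo (a b : ℕ) (g : V →ₗ[ℂ] V) :
    Sym[ℂ]^a (Sym[ℂ]^b V) →ₗ[ℂ] Sym[ℂ]^a (Sym[ℂ]^b V) :=
  symMap a (symMap b g)

/-- The defining formula of the Foulkes-Howe map. -/
def IsFoulkesHoweMap (a b : ℕ) (V : Type) [AddCommGroup V] [Module ℂ V]
    (f : Sym[ℂ]^a (Sym[ℂ]^b V) →ₗ[ℂ] Sym[ℂ]^b (Sym[ℂ]^a V)) : Prop :=
  ∀ v : Fin a → Fin b → V,
    f (rowTensor v) = ∑ σ : Fin a → Equiv.Perm (Fin b), colTensor (fun i k => v i (σ i k))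

/-- The map commutes with the functorial actions of all endomorphisms of `V`. -/
def IsEquivariantMap (a b : ℕ) (V : Type) [AddCommGroup V] [Module ℂ V]
    (f : Sym[ℂ]^a (Sym[ℂ]^b V) →ₗ[ℂ] Sym[ℂ]^b (Sym[ℂ]^a V)) : Prop :=
  ∀ (g : V →ₗ[ℂ] V) (x : Sym[ℂ]^a (Sym[ℂ]^b V)),
    f (symMapTwo a b g x) = symMapTwo b a g (f x)

/-- There is an injective equivariant map given by the Foulkes-Howe formula. -/
def FoulkesHoweInjective (a b : ℕ) (V : Type) [AddCommGroup V] [Module ℂ V] : Prop :=
  ∃ f : Sym[ℂ]^a (Sym[ℂ]^b V) →ₗ[ℂ] Sym[ℂ]^b (Sym[ℂ]^a V),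
    IsFoulkesHoweMap a b V f ∧ Function.Injective f ∧ IsEquivariantMap a b V f

end Vale.Agent.P181
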