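import Vale.Agent.P181.Basic
import Mathlib.Algebra.Polynomial.Derivative
import Mathlib.Algebra.Polynomial.BigOperators
import Mathlib.RingTheory.Localization.FractionRing

/-!
The tensor space of multidegree `(b, …, b)` lies in the ideal generated by `N`-th powers of
products of a common linear form, once `b ≥ card * N`.
-/

namespace Vale.Agent.P181

open Finset Polynomial

lemma weighted_coeff_sum_eq_zero {F : Type*} [Field F] (x : F) (K : ℕ) :
    ∀ (m : ℕ) (p : F[X]) (c : ℕ → F), (X - C x) ^ (m + 1) ∣ p → p.natDegree ≤ K →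
      ∑ k ∈ range (K + 1), (∏ j ∈ range m, ((k : F) - c j)) * p.coeff k * x ^ k = 0 := by
  intro m
  induction m with
  | zero =>
    intro p c hp hK
    rw [zero_add, pow_one, dvd_iff_isRoot, IsRoot] at hp
    rw [eval_eq_sum_range' (Nat.lt_succ_of_le hK)] at hp
    simpa using hp
  | succ m ih =>
    intro p c hp hK
    set p' := X * derivative p - C (c m) * p with hp'
    have hcoeff : ∀ k, p'.coeff k = ((k : F) - c m) * p.coeff k := by
      intro k
      cases k with
      | zero => simp [hp']
      | succ k =>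
        simp only [hp', coeff_sub, coeff_X_mul, coeff_derivative, coeff_C_mul, Nat.cast_succ]
        ring
    have hdvd : (X - C x) ^ (m + 1) ∣ p' := by
      obtain ⟨q, rfl⟩ := hp
      refine ⟨X * (C ((m + 1 + 1 : ℕ) : F) * q + (X - C x) * derivative q)
        - C (c m) * ((X - C x) * q), ?_⟩
      simp only [hp', derivative_mul, derivative_pow, derivative_sub, derivative_X,
        derivative_C, Nat.add_sub_cancel]
      ring
    have hdeg : p'.natDegree ≤ K := by
      rw [natDegree_le_iff_coeff_eq_zero]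
      intro k hk
      rw [hcoeff, coeff_eq_zero_of_natDegree_lt (hK.trans_lt hk), mul_zero]
    refine Eq.trans (sum_congr rfl fun k _ => ?_) (ih p' c hdvd hdeg)
    rw [hcoeff, prod_range_succ]
    ring

variable {P : Type*} [CommRing P] [Algebra ℂ P]
variable {W : Type*} [AddCommGroup W] [Module ℂ W]
variable {ι : Type*} (φ : ι → W →ₗ[ℂ] P)

/-- Span of all products of `b` linear forms in each point of `s`. -/
noncomputable def multiSpace (s : Finset ι) (b : ℕ) : Submodule ℂ P :=
  ∏ i ∈ s, (φ i).range ^ b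

/-- Span of the `N`-th powers of the products of one linear form over `s`. -/
noncomputable def thetaSpace (s : Finset ι) (N : ℕ) : Submodule ℂ P :=
  Submodule.span ℂ (Set.range fun L : W => (∏ i ∈ s, φ i L) ^ N)

lemma theta_pow_mem (s : Finset ι) (N : ℕ) (L : W) :
    (∏ i ∈ s, φ i L) ^ N ∈ thetaSpace φ s N :=
  Submodule.subset_span ⟨L, rfl⟩

lemma thetaSpace_le_pow (s : Finset ι) (N : ℕ) :
    thetaSpace φ s N ≤ thetaSpace φ s 1 ^ N := by
  rw [thetaSpace, Submodule.span_le]
  rintro _ ⟨L, rfl⟩
  exact Submodule.pow_mem_pow _ (by simpa using theta_pow_mem φ s 1 L) N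

variable [IsDomain P] [DecidableEq ι]

lemma key_mem (hinj : ∀ i, Function.Injective (φ i)) (i₀ : ι) (s : Finset ι) (hi : i₀ ∉ s)
    (N : ℕ) (hN : 0 < N) (L A : W) :
    φ i₀ L ^ ((s.card + 1) * N) * (∏ i ∈ s, φ i A) ^ N ∈
      thetaSpace φ (insert i₀ s) N * (φ i₀).range ^ (s.card * N) := by
  by_cases hA : φ i₀ A = 0
  · have hA0 : A = 0 := hinj i₀ (by simpa using hA)
    rcases s.eq_empty_or_nonempty with rfl | ⟨j, hj⟩
    · simp only [card_empty, zero_add, one_mul, prod_empty, one_pow, mul_one, zero_mul, pow_zero]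
      simpa using theta_pow_mem φ {i₀} N L
    · rw [prod_eq_zero hj (by simp [hA0]), zero_pow hN.ne', mul_zero]
      exact Submodule.zero_mem _
  set l := φ i₀ L with hl
  set α := φ i₀ A with hα
  set K := (s.card + 1) * N with hK
  set T := thetaSpace φ (insert i₀ s) N * (φ i₀).range ^ (s.card * N) with hT
  set p : P[X] := (∏ i ∈ insert i₀ s, (C (φ i L) + C (φ i A) * X)) ^ N with hp
  have hfac : ∀ i, (C (φ i L) + C (φ i A) * X).natDegree ≤ 1 := fun i => by
    rw [add_comm]; exact natDegree_linear_le
  have hprod : (∏ i ∈ insert i₀ s, (C (φ i L) + C (φ i A) * X)).natDegree ≤ s.card + 1 := by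
    refine (natDegree_prod_le _ _).trans ?_
    refine (sum_le_sum fun i _ => hfac i).trans ?_
    simp [card_insert_of_notMem hi]
  have hdeg : p.natDegree ≤ K := by
    rw [hp, hK, mul_comm (s.card + 1) N]
    exact natDegree_pow_le.trans (Nat.mul_le_mul_left _ hprod)
  have hc : ∀ k < K + 1, p.coeff k ∈ thetaSpace φ (insert i₀ s) N := by
    refine coeff_mem_of_curve_mem _ _ _ fun t => ?_
    have h1 : p.eval (algebraMap ℂ P t) = (∏ i ∈ insert i₀ s, φ i (L + t • A)) ^ N := by
      simp only [hp, eval_pow, eval_prod, eval_add, eval_mul, eval_C, eval_X, map_add, map_smul]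
      congr 1
      refine prod_congr rfl fun i _ => ?_
      rw [Algebra.smul_def, mul_comm]
    rw [eval_eq_sum_range' (Nat.lt_succ_of_le hdeg)] at h1
    convert theta_pow_mem φ (insert i₀ s) N (L + t • A) using 1
    rw [← h1]
    refine sum_congr rfl fun k _ => ?_
    rw [Algebra.smul_def, map_pow, mul_comm]
  have htop : p.coeff K = α ^ N * (∏ i ∈ s, φ i A) ^ N := by
    rw [hp, hK, mul_comm (s.card + 1) N, coeff_pow_of_natDegree_le hprod]
    congr 1
    have := coeff_prod_of_natDegree_le (insert i₀ s) (fun i => C (φ i L) + C (φ i A) * X) 1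
      (fun i _ => hfac i)
    rw [card_insert_of_notMem hi, mul_one] at this
    rw [this]
    simp [prod_insert hi, mul_pow, hα]
  let q : ℕ → ℂ := fun k => ∏ j ∈ range (N - 1), ((k : ℂ) - ((K : ℂ) - (j + 1)))
  have hzero : ∑ k ∈ range (K + 1), q k • (p.coeff k * (-l) ^ k * α ^ (K - k)) = 0 := by
    apply IsFractionRing.injective P (FractionRing P)
    set f := algebraMap P (FractionRing P)
    have hfα : f α ≠ 0 := fun h => hA (IsFractionRing.injective P (FractionRing P)
      (h.trans (map_zero f).symm))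
    set x := -(f l) / f α with hx
    have hdvd : (X - C x) ^ (N - 1 + 1) ∣ p.map f := by
      rw [Nat.sub_add_cancel hN, hp, Polynomial.map_pow, Polynomial.map_prod]
      refine pow_dvd_pow_of_dvd ((dvd_iff_isRoot.2 ?_).trans
        (dvd_prod_of_mem _ (mem_insert_self i₀ s))) N
      simp [IsRoot, hx, mul_div_cancel₀ _ hfα, ← hl, ← hα]
    have := weighted_coeff_sum_eq_zero x K (N - 1) (p.map f)
      (fun j => f (algebraMap ℂ P ((K : ℂ) - (j + 1)))) hdvd (natDegree_map_le.trans hdeg)
    rw [map_zero, map_sum, ← mul_zero (f α ^ K), ← this, mul_sum]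
    refine sum_congr rfl fun k hk => ?_
    have hkK : k ≤ K := by simpa [Nat.lt_succ_iff] using hk
    rw [show f α ^ K = f α ^ k * f α ^ (K - k) by rw [← pow_add, Nat.add_sub_cancel' hkK]]
    simp only [Algebra.smul_def, map_mul, map_pow, map_neg, coeff_map, q, map_prod, map_sub,
      map_natCast, hx, div_pow]
    field_simp
  have hlo : ∀ k < s.card * N + 1,
      q k • (p.coeff k * (-l) ^ k * α ^ (s.card * N - k)) ∈ T := by
    intro k hk
    refine T.smul_mem _ ?_
    rw [mul_assoc, hT]
    refine Submodule.mul_mem_mul (hc k (by rw [hK, add_mul]; omega)) ?_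
    rw [show s.card * N = k + (s.card * N - k) by omega, pow_add]
    refine Submodule.mul_mem_mul (Submodule.pow_mem_pow _ (neg_mem (LinearMap.mem_range_self _ L)) _) ?_
    simp only [add_tsub_cancel_left]
    exact Submodule.pow_mem_pow _ (LinearMap.mem_range_self _ A) _
  set x₀ := l ^ K * (∏ i ∈ s, φ i A) ^ N with hx₀
  have hmid : ∀ k, s.card * N < k → k < K → q k = 0 := by
    intro k h1 h2
    refine prod_eq_zero (i := K - k - 1) (mem_range.2 (by rw [hK, add_mul] at *; omega)) ?_
    have : ((K - k - 1 : ℕ) : ℂ) + 1 = (K : ℂ) - k := by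
      rw [← Nat.cast_succ, ← Nat.cast_sub h2.le]
      congr 1
      omega
    rw [this]; ring
  have hq : q K ≠ 0 := prod_ne_zero_iff.2 fun j _ => by
    simp only [sub_sub_cancel]
    exact_mod_cast Nat.succ_ne_zero j
  have hident : α ^ N * ((∑ k ∈ range (s.card * N + 1),
      q k • (p.coeff k * (-l) ^ k * α ^ (s.card * N - k))) + (q K * (-1) ^ K) • x₀) = 0 := by
    rw [← hzero]
    rw [sum_range_succ _ K, mul_add]
    congr 1
    · rw [mul_sum]
      rw [← sum_subset (s₁ := range (s.card * N + 1)) (s₂ := range K)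
        (range_subset_range.2 (by rw [hK, add_mul]; omega)) (fun k hk hk' => by
          rw [hmid k (by simpa [Nat.lt_succ_iff] using hk') (by simpa using hk), zero_smul])]
      refine sum_congr rfl fun k hk => ?_
      have hk' : k ≤ s.card * N := by simpa [Nat.lt_succ_iff] using hk
      rw [show K - k = N + (s.card * N - k) by rw [hK, add_mul]; omega, pow_add, mul_smul_comm]
      congr 1
      ring
    · rw [htop, hx₀, Nat.sub_self, pow_zero, mul_one, neg_pow l K]
      simp [Algebra.smul_def]
      ring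
  have hsum := (mul_eq_zero.1 hident).resolve_left (pow_ne_zero _ hA)
  have hmem : (q K * (-1) ^ K) • x₀ ∈ T := by
    rw [eq_neg_of_add_eq_zero_right hsum]
    exact neg_mem (Submodule.sum_mem _ fun k hk => hlo k (mem_range.1 hk))
  have hne : q K * (-1 : ℂ) ^ K ≠ 0 := mul_ne_zero hq (pow_ne_zero _ (by norm_num))
  have h := T.smul_mem (q K * (-1 : ℂ) ^ K)⁻¹ hmem
  rwa [smul_smul, inv_mul_cancel₀ hne, one_smul] at h

/-- One point of high degree absorbs the power of a product over the other points. -/
lemma key_le (hinj : ∀ i, Function.Injective (φ i)) (i₀ : ι) (s : Finset ι) (hi : i₀ ∉ s)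
    (N : ℕ) (hN : 0 < N) :
    (φ i₀).range ^ ((s.card + 1) * N) * thetaSpace φ s N ≤
      thetaSpace φ (insert i₀ s) N * (φ i₀).range ^ (s.card * N) := by
  refine (mul_le_mul_left (range_pow_le_span (φ i₀) _) _).trans ?_
  rw [thetaSpace, Submodule.span_mul_span, Submodule.span_le]
  rintro _ ⟨_, ⟨L, rfl⟩, _, ⟨A, rfl⟩, rfl⟩
  exact key_mem φ hinj i₀ s hi N hN L A

/-- Generation: `multiSpace b ≤ thetaSpace N * multiSpace (b - N)` for `b ≥ card * N`. -/
theorem multiSpace_le (hinj : ∀ i, Function.Injective (φ i)) (s : Finset ι) :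
    ∀ N b, s.card * N ≤ b →
      multiSpace φ s b ≤ thetaSpace φ s N * multiSpace φ s (b - N) := by
  induction s using Finset.induction with
  | empty =>
    intro N b _
    simp only [multiSpace, prod_empty, mul_one, Submodule.one_le]
    simpa using theta_pow_mem φ ∅ N (0 : W)
  | insert i₀ s hi ih =>
    intro N b hb
    rcases Nat.eq_zero_or_pos N with rfl | hN
    · refine le_of_eq_of_le (one_mul _).symm (mul_le_mul_left (Submodule.one_le.2 ?_) _)
      simpa using theta_pow_mem φ (insert i₀ s) 0 (0 : W)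
    rw [card_insert_of_notMem hi] at hb
    have hs : s.card * N ≤ b := (Nat.mul_le_mul_right _ (Nat.le_succ _)).trans hb
    have hkey := key_le φ hinj i₀ s hi N hN
    simp only [multiSpace, prod_insert hi] at *
    refine (mul_le_mul_right (ih N b hs) _).trans ?_
    rw [← Nat.add_sub_cancel' hb, pow_add, Nat.add_sub_cancel' hb]
    calc (φ i₀).range ^ ((s.card + 1) * N) * (φ i₀).range ^ (b - (s.card + 1) * N) *
          (thetaSpace φ s N * ∏ i ∈ s, (φ i).range ^ (b - N))
        = ((φ i₀).range ^ ((s.card + 1) * N) * thetaSpace φ s N) *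
          ((φ i₀).range ^ (b - (s.card + 1) * N) * ∏ i ∈ s, (φ i).range ^ (b - N)) := by ring
      _ ≤ (thetaSpace φ (insert i₀ s) N * (φ i₀).range ^ (s.card * N)) *
          ((φ i₀).range ^ (b - (s.card + 1) * N) * ∏ i ∈ s, (φ i).range ^ (b - N)) :=
        mul_le_mul_left hkey _
      _ = thetaSpace φ (insert i₀ s) N *
          ((φ i₀).range ^ (b - N) * ∏ i ∈ s, (φ i).range ^ (b - N)) := by
        rw [show b - N = s.card * N + (b - (s.card + 1) * N) by
          rw [add_mul] at *; omega, pow_add]
        ring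

end Vale.Agent.P181
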