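import Mathlib.LinearAlgebra.TensorPower.Symmetric
import Mathlib.LinearAlgebra.Dual.Basis
import Mathlib.Data.Fintype.Perm
import Mathlib.Analysis.Complex.Basic

/-!
Linear maps out of symmetric powers, functoriality, and reconstruction from evaluations.
-/

namespace Vale.Agent.P181

open Finset TensorProduct

variable {ι : Type} {M N : Type*} [AddCommGroup M] [Module ℂ M] [AddCommGroup N] [Module ℂ N]

lemma symLift_rel_le (f : MultilinearMap ℂ (fun _ : ι => M) N)
    (hf : ∀ (e : Equiv.Perm ι) (x : ι → M), f (fun i => x (e i)) = f x) :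
    addConGen (SymmetricPower.Rel ℂ ι M) ≤ AddCon.ker (PiTensorProduct.lift f).toAddMonoidHom :=
  AddCon.addConGen_le.2 fun x y h => by
    cases h with
    | perm e g => simp [hf e g]

/-- The additive map on a symmetric power induced by a symmetric multilinear map. -/
noncomputable def symLiftHom (f : MultilinearMap ℂ (fun _ : ι => M) N)
    (hf : ∀ (e : Equiv.Perm ι) (x : ι → M), f (fun i => x (e i)) = f x) :
    Sym[ℂ] ι M →+ N :=
  (addConGen (SymmetricPower.Rel ℂ ι M)).lift (PiTensorProduct.lift f).toAddMonoidHom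
    (symLift_rel_le f hf)

lemma symLiftHom_smul (f : MultilinearMap ℂ (fun _ : ι => M) N)
    (hf : ∀ (e : Equiv.Perm ι) (x : ι → M), f (fun i => x (e i)) = f x)
    (c : ℂ) (x : Sym[ℂ] ι M) : symLiftHom f hf (c • x) = c • symLiftHom f hf x :=
  AddCon.induction_on x fun y => (PiTensorProduct.lift f).map_smul c y

/-- The linear map on a symmetric power induced by a symmetric multilinear map. -/
noncomputable def symLift (f : MultilinearMap ℂ (fun _ : ι => M) N)
    (hf : ∀ (e : Equiv.Perm ι) (x : ι → M), f (fun i => x (e i)) = f x) :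
    Sym[ℂ] ι M →ₗ[ℂ] N where
  toFun := symLiftHom f hf
  map_add' := (symLiftHom f hf).map_add
  map_smul' := symLiftHom_smul f hf

@[simp] lemma symLift_tprod (f : MultilinearMap ℂ (fun _ : ι => M) N)
    (hf : ∀ (e : Equiv.Perm ι) (x : ι → M), f (fun i => x (e i)) = f x) (x : ι → M) :
    symLift f hf (SymmetricPower.tprod ℂ x) = f x :=
  PiTensorProduct.lift.tprod x

lemma sym_ext {f g : Sym[ℂ] ι M →ₗ[ℂ] N}
    (h : ∀ x : ι → M, f (SymmetricPower.tprod ℂ x) = g (SymmetricPower.tprod ℂ x)) : f = g :=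
  LinearMap.ext_on_range (SymmetricPower.span_tprod_eq_top ℂ ι M) h

lemma symMap_symm (k : ℕ) (g : M →ₗ[ℂ] N) (e : Equiv.Perm (Fin k)) (x : Fin k → M) :
    (SymmetricPower.tprod ℂ).compLinearMap (fun _ => g) (fun i => x (e i)) =
      (SymmetricPower.tprod ℂ).compLinearMap (fun _ => g) x := by
  simpa using SymmetricPower.tprod_equiv (R := ℂ) e fun i => g (x i)

/-- The map induced on `k`-th symmetric powers by a linear map: a pure tensor of vectors `v i`
goes to the pure tensor of the vectors `g (v i)`. -/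
noncomputable def symMap (k : ℕ) (g : M →ₗ[ℂ] N) : Sym[ℂ]^k M →ₗ[ℂ] Sym[ℂ]^k N :=
  symLift ((SymmetricPower.tprod ℂ).compLinearMap fun _ => g) (symMap_symm k g)

@[simp] lemma symMap_tprod (k : ℕ) (g : M →ₗ[ℂ] N) (x : Fin k → M) :
    symMap k g (SymmetricPower.tprod ℂ x) = SymmetricPower.tprod ℂ fun i => g (x i) :=
  symLift_tprod _ _ x

variable [Fintype ι] [DecidableEq ι]

/-- Evaluation of a symmetric tensor at a tuple of functionals. -/
noncomputable def symEval (u : ι → M →ₗ[ℂ] ℂ) : Sym[ℂ] ι M →ₗ[ℂ] ℂ :=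
  symLift (∑ σ : Equiv.Perm ι, (MultilinearMap.mkPiAlgebra ℂ ι ℂ).compLinearMap fun k => u (σ k))
    fun e x => by
      simp only [_root_.sum_apply, MultilinearMap.compLinearMap_apply,
        MultilinearMap.mkPiAlgebra_apply]
      refine Fintype.sum_equiv (Equiv.mulRight e⁻¹) _ _ fun σ => ?_
      rw [← Equiv.prod_comp e (fun k => u ((Equiv.mulRight e⁻¹ σ) k) (x k))]
      simp

lemma symEval_tprod (u : ι → M →ₗ[ℂ] ℂ) (x : ι → M) :
    symEval u (SymmetricPower.tprod ℂ x) = ∑ σ : Equiv.Perm ι, ∏ k, u (σ k) (x k) := by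
  simp [symEval]

lemma symEval_tprod' (u : ι → M →ₗ[ℂ] ℂ) (x : ι → M) :
    symEval u (SymmetricPower.tprod ℂ x) = ∑ σ : Equiv.Perm ι, ∏ k, u k (x (σ k)) := by
  rw [symEval_tprod]
  refine Fintype.sum_equiv (Equiv.inv _) _ _ fun σ => ?_
  rw [← Equiv.prod_comp σ⁻¹]
  simp

lemma symEval_perm (u : ι → M →ₗ[ℂ] ℂ) (e : Equiv.Perm ι) :
    symEval (fun k => u (e k)) = symEval u := by
  refine sym_ext fun x => ?_
  rw [symEval_tprod, symEval_tprod]
  exact Fintype.sum_equiv (Equiv.mulLeft e) _ _ fun σ => by simp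

lemma symEval_expand {J : Type*} [Fintype J] (c : ι → J → ℂ) (f : J → M →ₗ[ℂ] ℂ) :
    symEval (fun i => ∑ j, c i j • f j) = ∑ r : ι → J, (∏ i, c i (r i)) • symEval (f ∘ r) := by
  refine sym_ext fun x => ?_
  simp only [LinearMap.sum_apply, LinearMap.smul_apply, symEval_tprod', smul_eq_mul, mul_sum,
    Function.comp_apply]
  rw [sum_comm]
  refine sum_congr rfl fun σ _ => ?_
  rw [Fintype.prod_sum]
  simp [prod_mul_distrib]

/-- Reconstruction of a symmetric tensor from its evaluations. -/
lemma reconstruct {J : Type*} [Fintype J] (c : ℂ) (f : J → M →ₗ[ℂ] ℂ) (e : J → M)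
    (h : ∀ m, c • m = ∑ j, f j m • e j) (x : Sym[ℂ] ι M) :
    ((Fintype.card ι).factorial * c ^ Fintype.card ι) • x =
      ∑ r : ι → J, symEval (f ∘ r) x • SymmetricPower.tprod ℂ (e ∘ r) := by
  have : ((Fintype.card ι).factorial * c ^ Fintype.card ι : ℂ) • LinearMap.id =
      ∑ r : ι → J, (symEval (f ∘ r)).smulRight (SymmetricPower.tprod ℂ (e ∘ r)) := by
    refine sym_ext fun v => ?_
    simp only [LinearMap.smul_apply, LinearMap.id_apply, LinearMap.sum_apply,
      LinearMap.smulRight_apply, symEval_tprod', sum_smul, Function.comp_apply]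
    rw [sum_comm]
    calc ((Fintype.card ι).factorial * c ^ Fintype.card ι : ℂ) • SymmetricPower.tprod ℂ v
        = ∑ _σ : Equiv.Perm ι, c ^ Fintype.card ι • SymmetricPower.tprod ℂ v := by
          rw [sum_const, card_univ, Fintype.card_perm, mul_smul, Nat.cast_smul_eq_nsmul]
      _ = _ := sum_congr rfl fun σ _ => by
          conv_lhs => rw [← SymmetricPower.tprod_equiv σ v, ← prod_const_pow c]
          rw [← MultilinearMap.map_smul_univ]
          simp only [h]
          rw [MultilinearMap.map_sum]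
          refine sum_congr rfl fun r _ => ?_
          rw [MultilinearMap.map_smul_univ]
          rfl
  exact (LinearMap.congr_fun this x).trans (by simp)
where
  prod_const_pow (c : ℂ) : ∏ _i : ι, c = c ^ Fintype.card ι := by simp

end Vale.Agent.P181
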